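import Vale.Agent.P141.H312.Prof
import Vale.Agent.P141.H958.Theta
import Vale.Agent.P141.H958.Adapt
import Vale.Agent.P141.H958.MlF

/-!
# P141, line W: the profile path engine for finite families of planes

No cap enters the hypotheses or the result.  `X` is the finite set of parameters, `w` the weights.
-/

namespace Vale.Agent.P141.H312

open Finset Vale.Agent.P141.H958 Vale.Agent.P141.PL Vale.Agent.P141.PL.H588
open Vale.Agent.P141.PL.H804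

noncomputable section

/-- Every block has a cap. -/
theorem exists_cap (k : ℕ) (m1 m2 : ℤ) (A : ℤ → ℤ → ℝ) : ∃ c : ℝ, 0 < c ∧ Cap k m1 m2 c A := by
  set E : ℝ := ∑ x ∈ iv k m1, ∑ y ∈ iv k m2, A x y ^ 2 with hE
  have hE0 : 0 ≤ E := sum_nonneg fun _ _ => sum_nonneg fun _ _ => sq_nonneg _
  refine ⟨√E + 1, by positivity, fun u v => ?_⟩
  have h1 : (∑ x ∈ iv k m1, ∑ y ∈ iv k m2, u x * v y * A x y) ^ 2 ≤
      (∑ x ∈ iv k m1, ∑ y ∈ iv k m2, (u x * v y) ^ 2) * E := by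
    rw [hE]
    simp only [← sum_product']
    exact sum_mul_sq_le_sq_mul_sq _ _ _
  have h2 : ∑ x ∈ iv k m1, ∑ y ∈ iv k m2, (u x * v y) ^ 2 =
      (∑ x ∈ iv k m1, u x ^ 2) * (∑ y ∈ iv k m2, v y ^ 2) := by
    rw [sum_mul_sum]
    exact sum_congr rfl fun x _ => sum_congr rfl fun y _ => by ring
  rw [h2] at h1
  have h3 : 0 ≤ (∑ x ∈ iv k m1, u x ^ 2) * (∑ y ∈ iv k m2, v y ^ 2) :=
    mul_nonneg (sum_nonneg fun _ _ => sq_nonneg _) (sum_nonneg fun _ _ => sq_nonneg _)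
  have h4 : E ≤ ((√E + 1) * 2 ^ k) ^ 2 := by
    have h5 : (1 : ℝ) ≤ 2 ^ k := one_le_pow₀ (by norm_num)
    have h6 : √E ≤ (√E + 1) * 2 ^ k := by nlinarith [Real.sqrt_nonneg E]
    calc E = √E ^ 2 := (Real.sq_sqrt hE0).symm
      _ ≤ _ := pow_le_pow_left₀ (Real.sqrt_nonneg E) h6 2
  refine h1.trans ?_
  have h7 := mul_le_mul_of_nonneg_left h4 h3
  refine h7.trans (le_of_eq ?_)
  ring

/-- A common cap for finitely many blocks. -/
theorem exists_caps {τ : Type*} (T : Finset τ) (k : τ → ℕ) (m1 m2 : τ → ℤ)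
    (A : τ → ℤ → ℤ → ℝ) : ∃ c : ℝ, 0 < c ∧ ∀ t ∈ T, Cap (k t) (m1 t) (m2 t) c (A t) := by
  choose f hf0 hf using fun t => exists_cap (k t) (m1 t) (m2 t) (A t)
  refine ⟨1 + ∑ t ∈ T, f t, ?_, fun t ht => (hf t).mono (hf0 t).le ?_⟩
  · have := sum_nonneg fun t (_ : t ∈ T) => (hf0 t).le
    linarith
  · have := single_le_sum (f := f) (fun t _ => (hf0 t).le) ht
    linarith

/-- Cauchy-Schwarz with weights. -/
theorem sum_w_sqrt_le {ι : Type*} (X : Finset ι) {w r p : ι → ℝ} (hw : ∀ x ∈ X, 0 ≤ w x)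
    (hr : ∀ x ∈ X, 0 ≤ r x) (hp : ∀ x ∈ X, 0 ≤ p x) :
    ∑ x ∈ X, w x * √(r x * p x) ≤ √((∑ x ∈ X, w x * r x) * ∑ x ∈ X, w x * p x) := by
  refine Real.le_sqrt_of_sq_le ?_
  have h1 : ∑ x ∈ X, w x * √(r x * p x) = ∑ x ∈ X, √(w x * r x) * √(w x * p x) := by
    refine sum_congr rfl fun x hx => ?_
    rw [Real.sqrt_mul (hw x hx), Real.sqrt_mul (hw x hx), Real.sqrt_mul (hr x hx)]
    have := Real.mul_self_sqrt (hw x hx)
    linear_combination (-(√(r x) * √(p x))) * this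
  rw [h1]
  refine (sum_mul_sq_le_sq_mul_sq _ _ _).trans (le_of_eq ?_)
  congr 1
  · exact sum_congr rfl fun x hx => Real.sq_sqrt (mul_nonneg (hw x hx) (hr x hx))
  · exact sum_congr rfl fun x hx => Real.sq_sqrt (mul_nonneg (hw x hx) (hp x hx))

section

variable {ι : Type*} {X : Finset ι} {w : ι → ℝ} {N : ι → ℕ} {R : ι → Pt} {c : ι → ℕ → ℤ}
  {s : ι → ℕ → Finset Pt} {A B C : ι → ℕ → ℤ → ℤ → ℝ}

/-- The weighted sum of the pair sums. -/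
def PS (X : Finset ι) (w : ι → ℝ) (N : ι → ℕ) (R S T : ι → ℤ) (c : ι → ℕ → ℤ)
    (F H : ι → ℕ → ℤ → ℤ → ℝ) (μ ν : ℝ) : ℝ :=
  ∑ x ∈ X, w x * prs (N x) (R x) (S x) (T x) (c x) (wp μ (F x)) (wp ν (H x))

/-- The weighted sum of the forms with the indices `a`, `b`, `e`. -/
def VU (X : Finset ι) (w : ι → ℝ) (N : ι → ℕ) (s : ι → ℕ → Finset Pt) (cA cB cC : ℝ)
    (A B C : ι → ℕ → ℤ → ℤ → ℝ) (a b e : ℕ) : ℝ :=
  ∑ x ∈ X, w x * U (N x) (s x) cA cB cC (A x) (B x) (C x) a b e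

/-- The pair sums of a family of planes form a pair function. -/
theorem pairFn_sum (hw : ∀ x ∈ X, 0 ≤ w x) {R S T : ι → ℤ} {F H : ι → ℕ → ℤ → ℤ → ℝ}
    {κ D G D' G' : ℝ}
    (h : ∀ μ ν, 0 < μ → 0 < ν → PS X w N R S T c F H μ ν ≤ κ * (en D G μ + en D' G' ν)) :
    PairFn (PS X w N R S T c F H) κ D G D' G' where
  nonneg := fun μ ν _ _ => sum_nonneg fun x hx => mul_nonneg (hw x hx) (prs_nonneg ..)
  le := h
  left := fun μ ν θ hμ _ hθ hθ1 => by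
    unfold PS
    rw [mul_sum]
    refine sum_le_sum fun x hx => ?_
    have h1 := prs_theta_le (N x) (T x) (S x) (R x) (c x) hμ.le hθ.le hθ1 (wp ν (H x)) (F x)
    rw [prs_comm, prs_comm (N x) (T x)] at h1
    have h2 := mul_le_mul_of_nonneg_left h1 (hw x hx)
    refine le_trans (le_of_eq ?_) h2
    ring
  right := fun μ ν θ _ hν hθ hθ1 => by
    unfold PS
    rw [mul_sum]
    refine sum_le_sum fun x hx => ?_
    have h1 := prs_theta_le (N x) (R x) (S x) (T x) (c x) hν.le hθ.le hθ1 (wp μ (F x)) (H x)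
    have h2 := mul_le_mul_of_nonneg_left h1 (hw x hx)
    refine le_trans (le_of_eq ?_) h2
    ring

theorem sum_step (hw : ∀ x ∈ X, 0 ≤ w x) {f g r p : ι → ℝ} {v : ℝ} (hv : 0 ≤ v)
    (hr : ∀ x ∈ X, 0 ≤ r x) (hp : ∀ x ∈ X, 0 ≤ p x)
    (h : ∀ x ∈ X, f x ≤ g x + 6 * (v * √(r x * p x))) :
    ∑ x ∈ X, w x * f x ≤ ∑ x ∈ X, w x * g x +
      6 * (v * √((∑ x ∈ X, w x * r x) * ∑ x ∈ X, w x * p x)) := by
  have h1 : ∑ x ∈ X, w x * f x ≤ ∑ x ∈ X, w x * g x + 6 * (v * ∑ x ∈ X, w x * √(r x * p x)) := by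
    rw [mul_sum, mul_sum, ← sum_add_distrib]
    refine sum_le_sum fun x hx => ?_
    have := mul_le_mul_of_nonneg_left (h x hx) (hw x hx)
    linarith
  refine h1.trans (add_le_add le_rfl ?_)
  have h2 := sum_w_sqrt_le X hw hr hp
  have h3 := mul_le_mul_of_nonneg_left h2 hv
  linarith

section caps

variable {cA cB cC : ℝ}

/-- The three steps for the family. -/
theorem fam_step (hw : ∀ x ∈ X, 0 ≤ w x)
    (hs : ∀ x ∈ X, ∀ k ∈ Icc 1 (N x), s x k ⊆ bx3 (N x) (R x) k (c x k))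
    (hA : 0 < cA) (hB : 0 < cB) (hC : 0 < cC)
    (capA : ∀ x ∈ X, ∀ k ∈ Icc 1 (N x), ∀ m ∈ s x k, Cap k m.1 m.2.1 cA (A x k))
    (capB : ∀ x ∈ X, ∀ k ∈ Icc 1 (N x), ∀ m ∈ s x k, Cap k m.2.1 m.2.2 cB (B x k))
    (capC : ∀ x ∈ X, ∀ k ∈ Icc 1 (N x), ∀ m ∈ s x k, Cap k m.1 m.2.2 cC (C x k)) (a b e : ℕ) :
    (VU X w N s cA cB cC A B C a b e ≤ VU X w N s cA cB cC A B C (a + 1) b e +
      6 * (wl cA cB cC a b e *
        √(PS X w N (fun x => (R x).2.1) (fun x => (R x).1) (fun x => (R x).2.2) c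
            (fun x => sp (A x)) (fun x => sp (C x)) (lv cA a) (lv cC e) *
          PS X w N (fun x => (R x).1) (fun x => (R x).2.1) (fun x => (R x).2.2) c A
            (fun x => sp (B x)) (lv cA a) (lv cB b)))) ∧
    (VU X w N s cA cB cC A B C a b e ≤ VU X w N s cA cB cC A B C a (b + 1) e +
      6 * (wl cA cB cC a b e *
        √(PS X w N (fun x => (R x).1) (fun x => (R x).2.1) (fun x => (R x).2.2) c A
            (fun x => sp (B x)) (lv cA a) (lv cB b) *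
          PS X w N (fun x => (R x).2.1) (fun x => (R x).2.2) (fun x => (R x).1) c B C
            (lv cB b) (lv cC e)))) ∧
    (VU X w N s cA cB cC A B C a b e ≤ VU X w N s cA cB cC A B C a b (e + 1) +
      6 * (wl cA cB cC a b e *
        √(PS X w N (fun x => (R x).2.1) (fun x => (R x).2.2) (fun x => (R x).1) c B C
            (lv cB b) (lv cC e) *
          PS X w N (fun x => (R x).2.1) (fun x => (R x).1) (fun x => (R x).2.2) c
            (fun x => sp (A x)) (fun x => sp (C x)) (lv cA a) (lv cC e)))) := by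
  have w0 : 0 ≤ wl cA cB cC a b e := by unfold wl; positivity
  have st := fun x hx =>
    step (hs x hx) hA hB hC (capA x hx) (capB x hx) (capC x hx) a b e le_rfl le_rfl le_rfl
  have pn : ∀ (N : ℕ) (R S T : ℤ) (c : ℕ → ℤ) (F H : ℕ → ℤ → ℤ → ℝ), 0 ≤ prs N R S T c F H :=
    prs_nonneg
  refine ⟨?_, ?_, ?_⟩
  · exact sum_step hw w0 (fun x _ => pn ..) (fun x _ => pn ..) fun x hx => (st x hx).1
  · exact sum_step hw w0 (fun x _ => pn ..) (fun x _ => pn ..) fun x hx => (st x hx).2.1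
  · exact sum_step hw w0 (fun x _ => pn ..) (fun x _ => pn ..) fun x hx => (st x hx).2.2

/-- The tail for the family. -/
theorem fam_tail (hw : ∀ x ∈ X, 0 ≤ w x) (hA : 0 < cA) (hB : 0 < cB) (hC : 0 < cC)
    (capA : ∀ x ∈ X, ∀ k ∈ Icc 1 (N x), ∀ m ∈ s x k, Cap k m.1 m.2.1 cA (A x k))
    (capB : ∀ x ∈ X, ∀ k ∈ Icc 1 (N x), ∀ m ∈ s x k, Cap k m.2.1 m.2.2 cB (B x k))
    (capC : ∀ x ∈ X, ∀ k ∈ Icc 1 (N x), ∀ m ∈ s x k, Cap k m.1 m.2.2 cC (C x k)) :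
    ∃ K : ℝ, ∀ a b e : ℕ, VU X w N s cA cB cC A B C a b e ≤ K * (2 ^ a)⁻¹ ∧
      VU X w N s cA cB cC A B C a b e ≤ K * (2 ^ b)⁻¹ ∧
      VU X w N s cA cB cC A B C a b e ≤ K * (2 ^ e)⁻¹ := by
  have tl : ∀ x, ∃ K : ℝ, x ∈ X → ∀ a b e : ℕ,
      U (N x) (s x) cA cB cC (A x) (B x) (C x) a b e ≤ K * (2 ^ a)⁻¹ ∧
      U (N x) (s x) cA cB cC (A x) (B x) (C x) a b e ≤ K * (2 ^ b)⁻¹ ∧
      U (N x) (s x) cA cB cC (A x) (B x) (C x) a b e ≤ K * (2 ^ e)⁻¹ := by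
    intro x
    by_cases hx : x ∈ X
    · obtain ⟨K, hK⟩ := U_tail hA hB hC (capA x hx) (capB x hx) (capC x hx)
      exact ⟨K, fun _ => hK.2⟩
    · exact ⟨0, fun h => absurd h hx⟩
  choose K hK using tl
  refine ⟨∑ x ∈ X, w x * K x, fun a b e => ⟨?_, ?_, ?_⟩⟩
  · rw [VU, sum_mul]
    refine sum_le_sum fun x hx => ?_
    rw [mul_assoc]
    exact mul_le_mul_of_nonneg_left (hK x hx a b e).1 (hw x hx)
  · rw [VU, sum_mul]
    refine sum_le_sum fun x hx => ?_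
    rw [mul_assoc]
    exact mul_le_mul_of_nonneg_left (hK x hx a b e).2.1 (hw x hx)
  · rw [VU, sum_mul]
    refine sum_le_sum fun x hx => ?_
    rw [mul_assoc]
    exact mul_le_mul_of_nonneg_left (hK x hx a b e).2.2 (hw x hx)

theorem fam_zero : ∑ x ∈ X, w x * ∑ k ∈ Icc 1 (N x), (2 ^ k : ℝ)⁻¹ *
      ∑ m ∈ s x k, |tri k m (A x k) (B x k) (C x k)| = VU X w N s cA cB cC A B C 0 0 0 :=
  sum_congr rfl fun x _ => by rw [U_zero (N x) (s x) cA cB cC (A x) (B x) (C x)]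

end caps

/-- Common caps for a family. -/
theorem fam_caps (X : Finset ι) (N : ι → ℕ) (s : ι → ℕ → Finset Pt) (g h : Pt → ℤ)
    (A : ι → ℕ → ℤ → ℤ → ℝ) : ∃ cA : ℝ, 0 < cA ∧
      ∀ x ∈ X, ∀ k ∈ Icc 1 (N x), ∀ m ∈ s x k, Cap k (g m) (h m) cA (A x k) := by
  classical
  obtain ⟨cA, hA, capA⟩ := exists_caps
    (X.sigma fun x => (Icc 1 (N x)).sigma fun k => s x k) (fun t => t.2.1)
    (fun t => g t.2.2) (fun t => h t.2.2) (fun t => A t.1 t.2.1)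
  refine ⟨cA, hA, fun x hx k hk m hm => ?_⟩
  exact capA ⟨x, k, m⟩ (mem_sigma.2 ⟨hx, mem_sigma.2 ⟨hk, hm⟩⟩)

/-- **The profile path engine for a finite family of planes.** -/
theorem prof_fam (hw : ∀ x ∈ X, 0 ≤ w x)
    (hs : ∀ x ∈ X, ∀ k ∈ Icc 1 (N x), s x k ⊆ bx3 (N x) (R x) k (c x k))
    {κ DA GA DB GB DC GC : ℝ} (hκ : 0 ≤ κ) (hDA : 0 < DA) (hGA : 0 < GA)
    (hDB : 0 < DB) (hGB : 0 < GB) (hDC : 0 < DC) (hGC : 0 < GC)
    (hP : ∀ μ ν, 0 < μ → 0 < ν → ∑ x ∈ X, w x * prs (N x) (R x).1 (R x).2.1 (R x).2.2 (c x)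
      (wp μ (A x)) (wp ν (sp (B x))) ≤ κ * (en DA GA μ + en DB GB ν))
    (hQ : ∀ μ ν, 0 < μ → 0 < ν → ∑ x ∈ X, w x * prs (N x) (R x).2.1 (R x).2.2 (R x).1 (c x)
      (wp μ (B x)) (wp ν (C x)) ≤ κ * (en DB GB μ + en DC GC ν))
    (hR : ∀ μ ν, 0 < μ → 0 < ν → ∑ x ∈ X, w x * prs (N x) (R x).2.1 (R x).1 (R x).2.2 (c x)
      (wp μ (sp (A x))) (wp ν (sp (C x))) ≤ κ * (en DA GA μ + en DC GC ν)) :
    ∑ x ∈ X, w x * ∑ k ∈ Icc 1 (N x), (2 ^ k : ℝ)⁻¹ *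
        ∑ m ∈ s x k, |tri k m (A x k) (B x k) (C x k)| ≤
      2160 * κ * (√√(GA * GB) * √DC) *
        Real.log (2 + min (DA ^ 2 / GA) (DB ^ 2 / GB) * GC / DC ^ 2) := by
  obtain ⟨cA, hA, capA⟩ := fam_caps X N s (fun m => m.1) (fun m => m.2.1) A
  obtain ⟨cB, hB, capB⟩ := fam_caps X N s (fun m => m.2.1) (fun m => m.2.2) B
  obtain ⟨cC, hC, capC⟩ := fam_caps X N s (fun m => m.1) (fun m => m.2.2) C
  obtain ⟨K, hK⟩ := fam_tail hw hA hB hC capA capB capC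
  have st := fam_step hw hs hA hB hC capA capB capC
  rw [fam_zero (cA := cA) (cB := cB) (cC := cC)]
  exact prof_abs hA hB hC hκ hDA hGA hDB hGB hDC hGC
    (pairFn_sum (F := A) (H := fun x => sp (B x)) hw hP) (pairFn_sum (F := B) (H := C) hw hQ)
    (pairFn_sum (F := fun x => sp (A x)) (H := fun x => sp (C x)) hw hR)
    (fun a b e => (st a b e).1) (fun a b e => (st a b e).2.1) (fun a b e => (st a b e).2.2)
    (fun a b e => (hK a b e).1) (fun a b e => (hK a b e).2.1) (fun a b e => (hK a b e).2.2)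

/-- Energies of a family: the sum of the minima is at most the minimum of the sums. -/
theorem sum_en_le (hw : ∀ x ∈ X, 0 ≤ w x) {d g : ι → ℝ} {D G μ : ℝ} (hμ : 0 ≤ μ)
    (hD : ∑ x ∈ X, w x * d x ≤ D) (hG : ∑ x ∈ X, w x * g x ≤ G) :
    ∑ x ∈ X, w x * en (d x) (g x) μ ≤ en D G μ := by
  unfold en
  refine le_min ?_ ?_
  · have h1 : ∑ x ∈ X, w x * min (μ * d x) (μ ^ 2 * g x) ≤ μ * ∑ x ∈ X, w x * d x := by
      rw [mul_sum]
      refine sum_le_sum fun x hx => ?_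
      have := mul_le_mul_of_nonneg_left (min_le_left (μ * d x) (μ ^ 2 * g x)) (hw x hx)
      linarith
    exact h1.trans (mul_le_mul_of_nonneg_left hD hμ)
  · have h1 : ∑ x ∈ X, w x * min (μ * d x) (μ ^ 2 * g x) ≤ μ ^ 2 * ∑ x ∈ X, w x * g x := by
      rw [mul_sum]
      refine sum_le_sum fun x hx => ?_
      have := mul_le_mul_of_nonneg_left (min_le_right (μ * d x) (μ ^ 2 * g x)) (hw x hx)
      linarith
    exact h1.trans (mul_le_mul_of_nonneg_left hG (sq_nonneg μ))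

/-- **The engine, with energies for every parameter**: only the weighted sums of the energies
enter. -/
theorem prof_fam' (hw : ∀ x ∈ X, 0 ≤ w x)
    (hs : ∀ x ∈ X, ∀ k ∈ Icc 1 (N x), s x k ⊆ bx3 (N x) (R x) k (c x k))
    {κ : ℝ} (hκ : 0 ≤ κ) {dA gA dB gB dC gC : ι → ℝ}
    (hP : ∀ x ∈ X, ∀ μ ν, 0 < μ → 0 < ν → prs (N x) (R x).1 (R x).2.1 (R x).2.2 (c x)
      (wp μ (A x)) (wp ν (sp (B x))) ≤ κ * (en (dA x) (gA x) μ + en (dB x) (gB x) ν))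
    (hQ : ∀ x ∈ X, ∀ μ ν, 0 < μ → 0 < ν → prs (N x) (R x).2.1 (R x).2.2 (R x).1 (c x)
      (wp μ (B x)) (wp ν (C x)) ≤ κ * (en (dB x) (gB x) μ + en (dC x) (gC x) ν))
    (hR : ∀ x ∈ X, ∀ μ ν, 0 < μ → 0 < ν → prs (N x) (R x).2.1 (R x).1 (R x).2.2 (c x)
      (wp μ (sp (A x))) (wp ν (sp (C x))) ≤ κ * (en (dA x) (gA x) μ + en (dC x) (gC x) ν))
    {DA GA DB GB DC GC : ℝ} (hDA : 0 < DA) (hGA : 0 < GA) (hDB : 0 < DB) (hGB : 0 < GB)
    (hDC : 0 < DC) (hGC : 0 < GC)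
    (sDA : ∑ x ∈ X, w x * dA x ≤ DA) (sGA : ∑ x ∈ X, w x * gA x ≤ GA)
    (sDB : ∑ x ∈ X, w x * dB x ≤ DB) (sGB : ∑ x ∈ X, w x * gB x ≤ GB)
    (sDC : ∑ x ∈ X, w x * dC x ≤ DC) (sGC : ∑ x ∈ X, w x * gC x ≤ GC) :
    ∑ x ∈ X, w x * ∑ k ∈ Icc 1 (N x), (2 ^ k : ℝ)⁻¹ *
        ∑ m ∈ s x k, |tri k m (A x k) (B x k) (C x k)| ≤
      2160 * κ * (√√(GA * GB) * √DC) *
        Real.log (2 + min (DA ^ 2 / GA) (DB ^ 2 / GB) * GC / DC ^ 2) := by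
  have gen : ∀ (p : ι → ℝ) (d g d' g' : ι → ℝ) (D G D' G' μ ν : ℝ), 0 < μ → 0 < ν →
      (∀ x ∈ X, p x ≤ κ * (en (d x) (g x) μ + en (d' x) (g' x) ν)) →
      ∑ x ∈ X, w x * d x ≤ D → ∑ x ∈ X, w x * g x ≤ G →
      ∑ x ∈ X, w x * d' x ≤ D' → ∑ x ∈ X, w x * g' x ≤ G' →
      ∑ x ∈ X, w x * p x ≤ κ * (en D G μ + en D' G' ν) := by
    intro p d g d' g' D G D' G' μ ν hμ hν h h1 h2 h3 h4
    have h5 := sum_en_le hw hμ.le h1 h2
    have h6 := sum_en_le hw hν.le h3 h4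
    have h7 : ∑ x ∈ X, w x * p x ≤
        κ * (∑ x ∈ X, w x * en (d x) (g x) μ + ∑ x ∈ X, w x * en (d' x) (g' x) ν) := by
      rw [← sum_add_distrib, mul_sum]
      refine sum_le_sum fun x hx => ?_
      have := mul_le_mul_of_nonneg_left (h x hx) (hw x hx)
      linarith
    exact h7.trans (mul_le_mul_of_nonneg_left (by linarith) hκ)
  exact prof_fam hw hs hκ hDA hGA hDB hGB hDC hGC
    (fun μ ν hμ hν => gen _ _ _ _ _ _ _ _ _ μ ν hμ hν (fun x hx => hP x hx μ ν hμ hν)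
      sDA sGA sDB sGB)
    (fun μ ν hμ hν => gen _ _ _ _ _ _ _ _ _ μ ν hμ hν (fun x hx => hQ x hx μ ν hμ hν)
      sDB sGB sDC sGC)
    (fun μ ν hμ hν => gen _ _ _ _ _ _ _ _ _ μ ν hμ hν (fun x hx => hR x hx μ ν hμ hν)
      sDA sGA sDC sGC)

/-- **The engine for one plane.** -/
theorem prof_one {N : ℕ} {R : Pt} {c : ℕ → ℤ} {s : ℕ → Finset Pt} {A B C : ℕ → ℤ → ℤ → ℝ}
    (hs : ∀ k ∈ Icc 1 N, s k ⊆ bx3 N R k (c k))
    {κ DA GA DB GB DC GC : ℝ} (hκ : 0 ≤ κ) (hDA : 0 < DA) (hGA : 0 < GA)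
    (hDB : 0 < DB) (hGB : 0 < GB) (hDC : 0 < DC) (hGC : 0 < GC)
    (hP : ∀ μ ν, 0 < μ → 0 < ν → prs N R.1 R.2.1 R.2.2 c (wp μ A) (wp ν (sp B)) ≤
      κ * (en DA GA μ + en DB GB ν))
    (hQ : ∀ μ ν, 0 < μ → 0 < ν → prs N R.2.1 R.2.2 R.1 c (wp μ B) (wp ν C) ≤
      κ * (en DB GB μ + en DC GC ν))
    (hR : ∀ μ ν, 0 < μ → 0 < ν → prs N R.2.1 R.1 R.2.2 c (wp μ (sp A)) (wp ν (sp C)) ≤
      κ * (en DA GA μ + en DC GC ν)) :
    ∑ k ∈ Icc 1 N, (2 ^ k : ℝ)⁻¹ * ∑ m ∈ s k, |tri k m (A k) (B k) (C k)| ≤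
      2160 * κ * (√√(GA * GB) * √DC) *
        Real.log (2 + min (DA ^ 2 / GA) (DB ^ 2 / GB) * GC / DC ^ 2) := by
  have h := prof_fam (X := ({()} : Finset Unit)) (w := fun _ => 1) (N := fun _ => N)
    (R := fun _ => R) (c := fun _ => c) (s := fun _ => s) (A := fun _ => A) (B := fun _ => B)
    (C := fun _ => C) (fun _ _ => zero_le_one) (fun _ _ => hs) hκ hDA hGA hDB hGB hDC hGC
    (fun μ ν hμ hν => by simpa using hP μ ν hμ hν) (fun μ ν hμ hν => by simpa using hQ μ ν hμ hν)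
    (fun μ ν hμ hν => by simpa using hR μ ν hμ hν)
  simpa using h

end

end

end Vale.Agent.P141.H312
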