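import Mathlib

/-!
# P141, line W: sums over lacunary sequences and the greedy path

Pure real lemmas for the profile path engine.
-/

namespace Vale.Agent.P141.H312

open Finset

noncomputable section

/-! ### the telescoping function -/

theorem lac_step {c m u u' : ℝ} (hc : 0 < c) (hm : 0 ≤ m) (hu : 0 < u)
    (huu : 7 / 5 * u ≤ u') :
    min 1 (m / u) * min 1 (u / c) ≤
      28 * (Real.log ((u' + c) / (u' + 2 * (m + c))) -
        Real.log ((u + c) / (u + 2 * (m + c)))) := by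
  set M : ℝ := 2 * (m + c) with hM
  have hM0 : 0 < M := by positivity
  have hu' : 0 < u' := by linarith
  have h1 : 0 < (u' + c) / (u' + M) := by positivity
  have h2 : 0 < (u + c) / (u + M) := by positivity
  rw [← Real.log_div h1.ne' h2.ne']
  have h3 : 0 < (u' + c) / (u' + M) / ((u + c) / (u + M)) := by positivity
  have h4 := Real.one_sub_inv_le_log_of_pos h3
  have h5 : 1 - ((u' + c) / (u' + M) / ((u + c) / (u + M)))⁻¹ =
      (u' - u) / (u' + c) * ((M - c) / (u + M)) := by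
    field_simp
    ring
  rw [h5] at h4
  have h6 : 2 / 7 * (u / (u + c)) ≤ (u' - u) / (u' + c) := by
    rw [← mul_div_assoc, div_le_div_iff₀ (by positivity) (by positivity)]
    nlinarith [mul_pos hu hc]
  have h7 : 1 / 2 * (M / (u + M)) ≤ (M - c) / (u + M) := by
    rw [← mul_div_assoc]
    refine div_le_div_of_nonneg_right ?_ (by positivity)
    rw [hM]; linarith
  have h8 : 1 / 2 * min 1 (u / c) ≤ u / (u + c) := by
    rcases le_total u c with h | h
    · refine (mul_le_mul_of_nonneg_left (min_le_right _ _) (by norm_num)).trans ?_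
      rw [← mul_div_assoc, div_le_div_iff₀ hc (by positivity)]
      nlinarith
    · refine (mul_le_mul_of_nonneg_left (min_le_left _ _) (by norm_num)).trans ?_
      rw [le_div_iff₀ (by positivity)]
      linarith
  have h9 : 1 / 2 * min 1 (m / u) ≤ M / (u + M) := by
    rcases le_total M u with h | h
    · refine (mul_le_mul_of_nonneg_left (min_le_right _ _) (by norm_num)).trans ?_
      rw [← mul_div_assoc, div_le_div_iff₀ hu (by positivity)]
      have : m ≤ M := by rw [hM]; linarith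
      nlinarith [mul_le_mul_of_nonneg_right h hm, mul_le_mul_of_nonneg_right this hu.le]
    · refine (mul_le_mul_of_nonneg_left (min_le_left _ _) (by norm_num)).trans ?_
      rw [le_div_iff₀ (by positivity)]
      linarith
  have n1 : 0 ≤ min 1 (u / c) := le_min zero_le_one (by positivity)
  have n2 : 0 ≤ min 1 (m / u) := le_min zero_le_one (by positivity)
  have h10 : 1 / 7 * min 1 (u / c) ≤ (u' - u) / (u' + c) := by linarith
  have h11 : 1 / 4 * min 1 (m / u) ≤ (M - c) / (u + M) := by linarith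
  have h12 := mul_le_mul h10 h11 (by positivity) ((by positivity : (0 : ℝ) ≤
    1 / 7 * min 1 (u / c)).trans h10)
  linarith

/-- **The sum over a lacunary sequence**: flat between `c` and `m`, geometric outside. -/
theorem lac_sum {u : ℕ → ℝ} (hu : ∀ i, 0 < u i) (h : ∀ i, 7 / 5 * u i ≤ u (i + 1)) {c m : ℝ}
    (hc : 0 < c) (hm : 0 ≤ m) (n : ℕ) :
    ∑ i ∈ range n, min 1 (m / u i) * min 1 (u i / c) ≤ 28 * Real.log (2 + 2 * (m / c)) := by
  set f : ℕ → ℝ := fun i => Real.log ((u i + c) / (u i + 2 * (m + c))) with hf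
  have h1 : ∑ i ∈ range n, min 1 (m / u i) * min 1 (u i / c) ≤
      28 * ∑ i ∈ range n, (f (i + 1) - f i) := by
    rw [mul_sum]
    exact sum_le_sum fun i _ => lac_step hc hm (hu i) (h i)
  rw [sum_range_sub] at h1
  refine h1.trans (mul_le_mul_of_nonneg_left ?_ (by norm_num))
  have hn := hu n
  have h0 := hu 0
  have h2 : f n ≤ 0 := by
    refine Real.log_nonpos (by positivity) ?_
    rw [div_le_one (by positivity)]
    linarith
  have h3 : Real.log (c / (2 * (m + c))) ≤ f 0 := by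
    refine Real.log_le_log (by positivity) ?_
    rw [div_le_div_iff₀ (by positivity) (by positivity)]
    nlinarith [mul_nonneg h0.le hm, mul_pos h0 hc]
  have h4 : Real.log (2 + 2 * (m / c)) = - Real.log (c / (2 * (m + c))) := by
    rw [← Real.log_inv]
    congr 1
    field_simp
    ring
  linarith

/-! ### the cost function -/

/-- half of the minimum of the two energies of a slot -/
def mm (D G x : ℝ) : ℝ := √(min D √(x * G))

/-- The cost of a step whose smallest energy is `x`. -/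
def Psi (DA GA DB GB DC GC x : ℝ) : ℝ :=
  (√x)⁻¹ * (mm DA GA x * mm DB GB x * mm DC GC x)

theorem mm_nonneg (D G x : ℝ) : 0 ≤ mm D G x := Real.sqrt_nonneg _

theorem Psi_nonneg (DA GA DB GB DC GC x : ℝ) : 0 ≤ Psi DA GA DB GB DC GC x := by
  unfold Psi
  have := mm_nonneg DA GA x
  have := mm_nonneg DB GB x
  have := mm_nonneg DC GC x
  positivity

theorem mm_le_left (D G x : ℝ) : mm D G x ≤ √D := Real.sqrt_le_sqrt (min_le_left _ _)

theorem mm_le_right {x : ℝ} (hx : 0 ≤ x) (D G : ℝ) : mm D G x ≤ √√x * √√G := by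
  refine (Real.sqrt_le_sqrt (min_le_right _ _)).trans (le_of_eq ?_)
  rw [Real.sqrt_mul hx, Real.sqrt_mul (Real.sqrt_nonneg _)]

theorem mm_le_u {D G x : ℝ} (hG : 0 < G) (hx : 0 < x) :
    mm D G x ≤ √√x * √√G * min 1 (√D / √√G / √√x) := by
  have h1 : 0 < √√x := Real.sqrt_pos.2 (Real.sqrt_pos.2 hx)
  have h2 : 0 < √√G := Real.sqrt_pos.2 (Real.sqrt_pos.2 hG)
  rw [mul_min_of_nonneg _ _ (by positivity)]
  refine le_min ?_ ?_
  · rw [mul_one]; exact mm_le_right hx.le D G
  · refine (mm_le_left D G x).trans (le_of_eq ?_)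
    field_simp

theorem mm_le_c {D G x : ℝ} (hD : 0 < D) (hG : 0 < G) (hx : 0 < x) :
    mm D G x ≤ √D * min 1 (√√x / (√D / √√G)) := by
  have h1 : 0 < √√x := Real.sqrt_pos.2 (Real.sqrt_pos.2 hx)
  have h2 : 0 < √√G := Real.sqrt_pos.2 (Real.sqrt_pos.2 hG)
  have h3 : 0 < √D := Real.sqrt_pos.2 hD
  rw [mul_min_of_nonneg _ _ (by positivity)]
  refine le_min ?_ ?_
  · rw [mul_one]; exact mm_le_left D G x
  · refine (mm_le_right hx.le D G).trans (le_of_eq ?_)
    field_simp

theorem min_mul_min_le {p q : ℝ} (hp : 0 ≤ p) (hq : 0 ≤ q) :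
    min 1 p * min 1 q ≤ min 1 (min p q) := by
  have h1 : 0 ≤ min 1 p := le_min zero_le_one hp
  have h2 : 0 ≤ min 1 q := le_min zero_le_one hq
  have h3 : min 1 p ≤ 1 := min_le_left _ _
  have h4 : min 1 q ≤ 1 := min_le_left _ _
  have h5 : min 1 p ≤ p := min_le_right _ _
  have h6 : min 1 q ≤ q := min_le_right _ _
  refine le_min (by nlinarith) (le_min (by nlinarith) (by nlinarith))

/-- **The cost in the fourth root of the energy.** -/
theorem Psi_le {DA GA DB GB DC GC x : ℝ} (hGA : 0 < GA) (hGB : 0 < GB)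
    (hDC : 0 < DC) (hGC : 0 < GC) (hx : 0 < x) :
    Psi DA GA DB GB DC GC x ≤ √√(GA * GB) * √DC *
      (min 1 (min (√DA / √√GA) (√DB / √√GB) / √√x) * min 1 (√√x / (√DC / √√GC))) := by
  have hu : 0 < √√x := Real.sqrt_pos.2 (Real.sqrt_pos.2 hx)
  have hA := mm_le_u (D := DA) hGA hx
  have hB := mm_le_u (D := DB) hGB hx
  have hC := mm_le_c hDC hGC hx
  have a0 : 0 < √√GA := Real.sqrt_pos.2 (Real.sqrt_pos.2 hGA)
  have b0 : 0 < √√GB := Real.sqrt_pos.2 (Real.sqrt_pos.2 hGB)
  have hx2 : √x = √√x * √√x := (Real.mul_self_sqrt (Real.sqrt_nonneg _)).symm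
  have hg : √√(GA * GB) = √√GA * √√GB := by
    rw [Real.sqrt_mul hGA.le, Real.sqrt_mul (Real.sqrt_nonneg _)]
  have pa : 0 ≤ √DA / √√GA / √√x := by positivity
  have pb : 0 ≤ √DB / √√GB / √√x := by positivity
  have hmin : min 1 (√DA / √√GA / √√x) * min 1 (√DB / √√GB / √√x) ≤
      min 1 (min (√DA / √√GA) (√DB / √√GB) / √√x) := by
    refine (min_mul_min_le pa pb).trans (le_of_eq ?_)
    rw [min_div_div_right hu.le]
  have h1 : mm DA GA x * mm DB GB x ≤ √x * (√√GA * √√GB) *
      min 1 (min (√DA / √√GA) (√DB / √√GB) / √√x) := by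
    have hA0 : 0 ≤ √√x * √√GA * min 1 (√DA / √√GA / √√x) := (mm_nonneg _ _ _).trans hA
    refine (mul_le_mul hA hB (mm_nonneg _ _ _) hA0).trans ?_
    refine le_trans (le_of_eq ?_) (mul_le_mul_of_nonneg_left hmin
      (by positivity : 0 ≤ √x * (√√GA * √√GB)))
    linear_combination (-(√√GA * √√GB * min 1 (√DA / √√GA / √√x) *
      min 1 (√DB / √√GB / √√x))) * hx2
  have h2 : mm DA GA x * mm DB GB x * mm DC GC x ≤ (√x * (√√GA * √√GB) *
      min 1 (min (√DA / √√GA) (√DB / √√GB) / √√x)) *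
      (√DC * min 1 (√√x / (√DC / √√GC))) :=
    mul_le_mul h1 hC (mm_nonneg _ _ _)
      ((mul_nonneg (mm_nonneg _ _ _) (mm_nonneg _ _ _)).trans h1)
  have hsx : 0 < √x := Real.sqrt_pos.2 hx
  unfold Psi
  refine (mul_le_mul_of_nonneg_left h2 (inv_nonneg.2 hsx.le)).trans (le_of_eq ?_)
  rw [hg]
  field_simp

/-! ### pair functions -/

/-- The energy of a slot at the weight `μ`. -/
def en (D G μ : ℝ) : ℝ := min (μ * D) (μ ^ 2 * G)

theorem en_pos {D G μ : ℝ} (hD : 0 < D) (hG : 0 < G) (hμ : 0 < μ) : 0 < en D G μ :=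
  lt_min (by positivity) (by positivity)

theorem en_four {D G μ : ℝ} (hG : 0 < G) (hμ : 0 < μ) :
    4 * en D G μ ≤ en D G (4 * μ) := by
  unfold en
  refine le_min ?_ ?_
  · have := min_le_left (μ * D) (μ ^ 2 * G)
    nlinarith
  · have := min_le_right (μ * D) (μ ^ 2 * G)
    have h2 : 0 < μ ^ 2 * G := by positivity
    nlinarith

/-- **The balanced pair bound from the arithmetic one**: `x` is the smaller energy. -/
theorem pr_le {Pf : ℝ → ℝ} {κ x D G ν : ℝ} (hκ : 0 ≤ κ) (hx : 0 < x) (hν : 0 < ν)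
    (hG : 0 < G) (hb : ∀ ν, 0 < ν → Pf ν ≤ κ * (x + en D G ν))
    (hs : ∀ ν θ, 0 < ν → 0 < θ → θ ≤ 1 → θ * Pf ν ≤ Pf (θ * ν)) (hle : x ≤ en D G ν) :
    Pf ν ≤ 2 * κ * ν * min D √(x * G) := by
  have hsG : 0 < √G := Real.sqrt_pos.2 hG
  have hsx : 0 < √x := Real.sqrt_pos.2 hx
  rw [mul_min_of_nonneg _ _ (by positivity)]
  refine le_min ?_ ?_
  · have h1 := hb ν hν
    have h2 : en D G ν ≤ ν * D := min_le_left _ _
    have h3 : κ * (x + en D G ν) ≤ κ * (ν * D + ν * D) :=
      mul_le_mul_of_nonneg_left (by linarith) hκ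
    linarith
  · set θ : ℝ := √x / (ν * √G) with hθ
    have hθ0 : 0 < θ := by positivity
    have h1 : √x ≤ ν * √G := by
      have h2 : x ≤ ν ^ 2 * G := hle.trans (min_le_right _ _)
      refine (Real.sqrt_le_sqrt h2).trans (le_of_eq ?_)
      rw [Real.sqrt_mul (sq_nonneg _), Real.sqrt_sq hν.le]
    have hθ1 : θ ≤ 1 := (div_le_one (by positivity)).2 h1
    have h2 := hs ν θ hν hθ0 hθ1
    have h3 := hb (θ * ν) (by positivity)
    have h4 : en D G (θ * ν) ≤ x := by
      refine (min_le_right _ _).trans (le_of_eq ?_)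
      rw [hθ, mul_pow, div_pow, mul_pow, Real.sq_sqrt hx.le, Real.sq_sqrt hG.le]
      field_simp
    have h5 : θ * Pf ν ≤ κ * (2 * x) := by
      refine h2.trans (h3.trans (mul_le_mul_of_nonneg_left (by linarith) hκ))
    have h6 : Pf ν ≤ κ * (2 * x) / θ := by
      rw [le_div_iff₀ hθ0]; linarith
    refine h6.trans (le_of_eq ?_)
    have hxx : x = √x * √x := (Real.mul_self_sqrt hx.le).symm
    rw [hθ, Real.sqrt_mul hx.le]
    rw [div_div_eq_mul_div, div_eq_iff hsx.ne']
    calc κ * (2 * x) * (ν * √G) = κ * (2 * (√x * √x)) * (ν * √G) := by rw [← hxx]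
      _ = 2 * κ * ν * (√x * √G) * √x := by ring

/-- The weight of the raised slot. -/
theorem inv_sqrt_le {D G μ : ℝ} (hD : 0 < D) (hG : 0 < G) (hμ : 0 < μ) :
    (√μ)⁻¹ ≤ (√(en D G μ))⁻¹ * mm D G (en D G μ) := by
  have hx := en_pos hD hG hμ
  set x := en D G μ with hxd
  have hsx : 0 < √x := Real.sqrt_pos.2 hx
  have hsμ : 0 < √μ := Real.sqrt_pos.2 hμ
  have h1 : x ≤ μ * min D √(x * G) := by
    rw [mul_min_of_nonneg _ _ hμ.le]
    refine le_min (min_le_left _ _) ?_
    have h2 : x ≤ μ ^ 2 * G := min_le_right _ _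
    have h3 : x ^ 2 ≤ μ ^ 2 * (x * G) := by nlinarith
    have h4 : √(x ^ 2) ≤ √(μ ^ 2 * (x * G)) := Real.sqrt_le_sqrt h3
    rwa [Real.sqrt_sq hx.le, Real.sqrt_mul (sq_nonneg _), Real.sqrt_sq hμ.le] at h4
  have h2 : √x ≤ √μ * mm D G x := by
    refine (Real.sqrt_le_sqrt h1).trans (le_of_eq ?_)
    rw [Real.sqrt_mul hμ.le, mm]
  rw [inv_eq_one_div, inv_mul_eq_div, div_le_div_iff₀ hsμ hsx]
  linarith

/-- **The cost of one step.** -/
theorem cost_le {κ μ ν ω DA GA DB GB DC GC p r : ℝ} (hκ : 0 ≤ κ) (hμ : 0 < μ) (hν : 0 < ν)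
    (hω : 0 < ω) (hDA : 0 < DA) (hGA : 0 < GA) (hDB : 0 < DB) (hDC : 0 < DC)
    (hp0 : 0 ≤ p)
    (hp : p ≤ 2 * κ * ν * min DB √(en DA GA μ * GB))
    (hr : r ≤ 2 * κ * ω * min DC √(en DA GA μ * GC)) :
    (√μ)⁻¹ * (√ν)⁻¹ * (√ω)⁻¹ * √(r * p) ≤
      2 * κ * Psi DA GA DB GB DC GC (en DA GA μ) := by
  have hx := en_pos hDA hGA hμ
  have h0 := inv_sqrt_le hDA hGA hμ
  set x := en DA GA μ with hxd
  have hsν : 0 < √ν := Real.sqrt_pos.2 hν
  have hsω : 0 < √ω := Real.sqrt_pos.2 hω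
  have mB : 0 ≤ min DB √(x * GB) := le_min hDB.le (Real.sqrt_nonneg _)
  have mC : 0 ≤ min DC √(x * GC) := le_min hDC.le (Real.sqrt_nonneg _)
  have h1 : √(r * p) ≤ 2 * κ * (√ω * √ν) * (mm DC GC x * mm DB GB x) := by
    have h2 : r * p ≤ (2 * κ * ω * min DC √(x * GC)) * (2 * κ * ν * min DB √(x * GB)) :=
      mul_le_mul hr hp hp0 (by positivity)
    refine (Real.sqrt_le_sqrt h2).trans (le_of_eq ?_)
    have e : (2 * κ * ω * min DC √(x * GC)) * (2 * κ * ν * min DB √(x * GB)) =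
        (2 * κ) ^ 2 * (ω * ν * (min DC √(x * GC) * min DB √(x * GB))) := by ring
    rw [e, Real.sqrt_mul (sq_nonneg _), Real.sqrt_sq (by positivity),
      Real.sqrt_mul (by positivity), Real.sqrt_mul hω.le, Real.sqrt_mul mC]
    unfold mm
    ring
  have h3 : (√μ)⁻¹ * (√ν)⁻¹ * (√ω)⁻¹ * √(r * p) ≤
      ((√x)⁻¹ * mm DA GA x) * (√ν)⁻¹ * (√ω)⁻¹ *
        (2 * κ * (√ω * √ν) * (mm DC GC x * mm DB GB x)) := by
    have hm := mm_nonneg DA GA x
    have hsx : 0 < √x := Real.sqrt_pos.2 hx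
    gcongr
  refine h3.trans (le_of_eq ?_)
  unfold Psi
  field_simp

/-! ### the greedy path -/

/-- Always raise the index with the smallest energy; stop as soon as one index is `L`. -/
theorem greedy {V : ℕ → ℕ → ℕ → ℝ} {x y z α β γ : ℕ → ℝ} {L : ℕ} {Z : ℝ}
    (hα : ∀ i, 0 ≤ α i) (hβ : ∀ i, 0 ≤ β i) (hγ : ∀ i, 0 ≤ γ i)
    (hA : ∀ a b e, x a ≤ y b → x a ≤ z e → V a b e ≤ V (a + 1) b e + α a)
    (hB : ∀ a b e, y b ≤ x a → y b ≤ z e → V a b e ≤ V a (b + 1) e + β b)
    (hC : ∀ a b e, z e ≤ x a → z e ≤ y b → V a b e ≤ V a b (e + 1) + γ e)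
    (hZ : ∀ a b e, a = L ∨ b = L ∨ e = L → V a b e ≤ Z) :
    V 0 0 0 ≤ Z + (∑ i ∈ range L, α i + ∑ i ∈ range L, β i + ∑ i ∈ range L, γ i) := by
  have key : ∀ n a b e : ℕ, a ≤ L → b ≤ L → e ≤ L → (L - a) + (L - b) + (L - e) = n →
      V a b e ≤ Z + (∑ i ∈ Ico a L, α i + ∑ i ∈ Ico b L, β i + ∑ i ∈ Ico e L, γ i) := by
    intro n
    induction n with
    | zero =>
      intro a b e ha hb he h
      have : a = L := by omega
      have h1 := hZ a b e (Or.inl this)
      have h2 := sum_nonneg fun i (_ : i ∈ Ico a L) => hα i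
      have h3 := sum_nonneg fun i (_ : i ∈ Ico b L) => hβ i
      have h4 := sum_nonneg fun i (_ : i ∈ Ico e L) => hγ i
      linarith
    | succ n ih =>
      intro a b e ha hb he h
      by_cases hst : a = L ∨ b = L ∨ e = L
      · have h1 := hZ a b e hst
        have h2 := sum_nonneg fun i (_ : i ∈ Ico a L) => hα i
        have h3 := sum_nonneg fun i (_ : i ∈ Ico b L) => hβ i
        have h4 := sum_nonneg fun i (_ : i ∈ Ico e L) => hγ i
        linarith
      · push Not at hst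
        obtain ⟨na, nb, ne⟩ := hst
        have ha' : a < L := lt_of_le_of_ne ha na
        have hb' : b < L := lt_of_le_of_ne hb nb
        have he' : e < L := lt_of_le_of_ne he ne
        have casA : x a ≤ y b → x a ≤ z e →
            V a b e ≤ Z + (∑ i ∈ Ico a L, α i + ∑ i ∈ Ico b L, β i + ∑ i ∈ Ico e L, γ i) := by
          intro h1 h2
          have h3 := hA a b e h1 h2
          have h4 := ih (a + 1) b e ha' hb he (by omega)
          rw [sum_eq_sum_Ico_succ_bot ha']
          linarith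
        have casB : y b ≤ x a → y b ≤ z e →
            V a b e ≤ Z + (∑ i ∈ Ico a L, α i + ∑ i ∈ Ico b L, β i + ∑ i ∈ Ico e L, γ i) := by
          intro h1 h2
          have h3 := hB a b e h1 h2
          have h4 := ih a (b + 1) e ha hb' he (by omega)
          rw [sum_eq_sum_Ico_succ_bot hb']
          linarith
        have casC : z e ≤ x a → z e ≤ y b →
            V a b e ≤ Z + (∑ i ∈ Ico a L, α i + ∑ i ∈ Ico b L, β i + ∑ i ∈ Ico e L, γ i) := by
          intro h1 h2
          have h3 := hC a b e h1 h2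
          have h4 := ih a b (e + 1) ha hb he' (by omega)
          rw [sum_eq_sum_Ico_succ_bot he']
          linarith
        rcases le_total (x a) (y b) with h1 | h1
        · rcases le_total (x a) (z e) with h2 | h2
          · exact casA h1 h2
          · exact casC h2 (h2.trans h1)
        · rcases le_total (y b) (z e) with h2 | h2
          · exact casB h1 h2
          · exact casC (h2.trans h1) h2
  have h := key _ 0 0 0 (Nat.zero_le L) (Nat.zero_le L) (Nat.zero_le L) rfl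
  rw [← range_eq_Ico] at h
  exact h

end

end Vale.Agent.P141.H312
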