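import Vale.Agent.P141.H312.Lac
import Vale.Agent.P141.H958.Step

/-!
# P141, line W: the profile path engine, abstract form

`V a b e` is any family of numbers with the three steps of `H958.step` for three pair functions
`P`, `Q`, `R` of two weights, and with a tail.  The pair functions have arithmetic bounds with the
energies `min (μ D) (μ ^ 2 G)` and scale.  No cap and no number of levels enters the result.
-/

namespace Vale.Agent.P141.H312

open Finset Vale.Agent.P141.H958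

noncomputable section

theorem lv_zero (c : ℝ) : lv c 0 = lv c 1 := rfl

theorem lv_succ (c : ℝ) (i : ℕ) : lv c (i + 1 + 1) = 4 * lv c (i + 1) := by
  unfold lv Vale.Agent.P141.PL.H804.lw
  simp only [Nat.add_sub_cancel]
  rw [pow_succ]
  ring

theorem lac_en {D G c : ℝ} (hG : 0 < G) (hc : 0 < c) (i : ℕ) :
    7 / 5 * √√(en D G (lv c (i + 1))) ≤ √√(en D G (lv c (i + 1 + 1))) := by
  have hμ := lv_pos hc (i + 1)
  have h1 : 4 * en D G (lv c (i + 1)) ≤ en D G (lv c (i + 1 + 1)) := by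
    rw [lv_succ]; exact en_four hG hμ
  have h2 : √√(4 * en D G (lv c (i + 1))) ≤ √√(en D G (lv c (i + 1 + 1))) :=
    Real.sqrt_le_sqrt (Real.sqrt_le_sqrt h1)
  refine le_trans ?_ h2
  rw [Real.sqrt_mul (by norm_num : (0 : ℝ) ≤ 4), show (4 : ℝ) = 2 ^ 2 by norm_num,
    Real.sqrt_sq (by norm_num : (0 : ℝ) ≤ 2), Real.sqrt_mul (by norm_num : (0 : ℝ) ≤ 2)]
  refine mul_le_mul_of_nonneg_right ?_ (Real.sqrt_nonneg _)
  exact Real.le_sqrt_of_sq_le (by norm_num)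

/-- The cost of all the steps of one slot. -/
theorem sum_Psi_le {DA GA DB GB DC GC : ℝ} (hDA : 0 < DA) (hGA : 0 < GA)
    (hDB : 0 < DB) (hGB : 0 < GB) (hDC : 0 < DC) (hGC : 0 < GC) {D G c : ℝ} (hD : 0 < D)
    (hG : 0 < G) (hc : 0 < c) (L : ℕ) :
    ∑ a ∈ range L, Psi DA GA DB GB DC GC (en D G (lv c a)) ≤
      √√(GA * GB) * √DC * (30 * Real.log (2 + 2 *
        (min (√DA / √√GA) (√DB / √√GB) / (√DC / √√GC)))) := by
  set m := min (√DA / √√GA) (√DB / √√GB) with hm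
  set cc := √DC / √√GC with hcc
  set W := √√(GA * GB) * √DC with hW
  have hW0 : 0 ≤ W := by positivity
  have hc0 : 0 < cc := div_pos (Real.sqrt_pos.2 hDC) (Real.sqrt_pos.2 (Real.sqrt_pos.2 hGC))
  have hm0 : 0 ≤ m := le_min (by positivity) (by positivity)
  have hx : ∀ i, 0 < en D G (lv c i) := fun i => en_pos hD hG (lv_pos hc i)
  have hl : (1 : ℝ) ≤ 2 * Real.log (2 + 2 * (m / cc)) := by
    have h1 : Real.log 2 ≤ Real.log (2 + 2 * (m / cc)) :=
      Real.log_le_log (by norm_num) (by have : 0 ≤ m / cc := by positivity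
                                        linarith)
    have h2 : (1 : ℝ) / 2 ≤ Real.log 2 := by
      have := Real.log_two_gt_d9
      linarith
    linarith
  have hterm : ∀ i, Psi DA GA DB GB DC GC (en D G (lv c i)) ≤
      W * (min 1 (m / √√(en D G (lv c i))) * min 1 (√√(en D G (lv c i)) / cc)) :=
    fun i => Psi_le hGA hGB hDC hGC (hx i)
  have hgg : ∀ i, min 1 (m / √√(en D G (lv c i))) * min 1 (√√(en D G (lv c i)) / cc) ≤ 1 := by
    intro i
    have h1 : min 1 (m / √√(en D G (lv c i))) ≤ 1 := min_le_left _ _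
    have h2 : min 1 (√√(en D G (lv c i)) / cc) ≤ 1 := min_le_left _ _
    have h3 : 0 ≤ min 1 (√√(en D G (lv c i)) / cc) := le_min zero_le_one (by positivity)
    nlinarith
  rcases Nat.eq_zero_or_pos L with rfl | hL
  · simp only [range_zero, sum_empty]
    have : 0 ≤ 30 * Real.log (2 + 2 * (m / cc)) := by linarith
    positivity
  · obtain ⟨n, rfl⟩ := Nat.exists_eq_succ_of_ne_zero hL.ne'
    rw [sum_range_succ']
    have h1 := lac_sum (u := fun i => √√(en D G (lv c (i + 1))))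
      (fun i => Real.sqrt_pos.2 (Real.sqrt_pos.2 (hx (i + 1))))
      (fun i => lac_en hG hc i) hc0 hm0 n
    have h2 : ∑ i ∈ range n, Psi DA GA DB GB DC GC (en D G (lv c (i + 1))) ≤
        W * (28 * Real.log (2 + 2 * (m / cc))) := by
      refine (sum_le_sum fun i _ => hterm (i + 1)).trans ?_
      rw [← mul_sum]
      exact mul_le_mul_of_nonneg_left h1 hW0
    have h3 : Psi DA GA DB GB DC GC (en D G (lv c 0)) ≤ W * 1 :=
      (hterm 0).trans (mul_le_mul_of_nonneg_left (hgg 0) hW0)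
    have h4 : W * 1 ≤ W * (2 * Real.log (2 + 2 * (m / cc))) := mul_le_mul_of_nonneg_left hl hW0
    linarith

theorem sqrt_lv {s : ℝ} (hs : 0 < s) (a : ℕ) : (√(lv s a))⁻¹ = s / 2 ^ (a - 1) := by
  rw [← Real.sqrt_inv, inv_lv hs, Real.sqrt_sq (by positivity)]

theorem wl_eq {cA cB cC : ℝ} (hA : 0 < cA) (hB : 0 < cB) (hC : 0 < cC) (a b e : ℕ) :
    wl cA cB cC a b e = (√(lv cA a))⁻¹ * (√(lv cB b))⁻¹ * (√(lv cC e))⁻¹ := by
  rw [sqrt_lv hA, sqrt_lv hB, sqrt_lv hC, wl]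

/-- The hypotheses on a pair function. -/
structure PairFn (P : ℝ → ℝ → ℝ) (κ D G D' G' : ℝ) : Prop where
  nonneg : ∀ μ ν, 0 < μ → 0 < ν → 0 ≤ P μ ν
  le : ∀ μ ν, 0 < μ → 0 < ν → P μ ν ≤ κ * (en D G μ + en D' G' ν)
  left : ∀ μ ν θ, 0 < μ → 0 < ν → 0 < θ → θ ≤ 1 → θ * P μ ν ≤ P (θ * μ) ν
  right : ∀ μ ν θ, 0 < μ → 0 < ν → 0 < θ → θ ≤ 1 → θ * P μ ν ≤ P μ (θ * ν)

theorem PairFn.bd_right {P : ℝ → ℝ → ℝ} {κ D G D' G' : ℝ} (h : PairFn P κ D G D' G')
    (hκ : 0 ≤ κ) (hD : 0 < D) (hG : 0 < G) (hG' : 0 < G') {μ ν : ℝ} (hμ : 0 < μ) (hν : 0 < ν)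
    (hle : en D G μ ≤ en D' G' ν) : P μ ν ≤ 2 * κ * ν * min D' √(en D G μ * G') :=
  pr_le (Pf := fun ν => P μ ν) hκ (en_pos hD hG hμ) hν hG' (fun ν hν => h.le μ ν hμ hν)
    (fun ν θ hν h0 h1 => h.right μ ν θ hμ hν h0 h1) hle

theorem PairFn.bd_left {P : ℝ → ℝ → ℝ} {κ D G D' G' : ℝ} (h : PairFn P κ D G D' G')
    (hκ : 0 ≤ κ) (hG : 0 < G) (hD' : 0 < D') (hG' : 0 < G') {μ ν : ℝ} (hμ : 0 < μ)
    (hν : 0 < ν) (hle : en D' G' ν ≤ en D G μ) :
    P μ ν ≤ 2 * κ * μ * min D √(en D' G' ν * G) :=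
  pr_le (Pf := fun μ => P μ ν) hκ (en_pos hD' hG' hν) hμ hG
    (fun μ hμ => by have := h.le μ ν hμ hν; rwa [add_comm] at this)
    (fun μ θ hμ h0 h1 => h.left μ ν θ hμ hν h0 h1) hle

/-- The fourth root of the quotient of the profiles. -/
theorem log_root_le {DA GA DB GB DC GC : ℝ} (hDA : 0 < DA) (hGA : 0 < GA)
    (hDB : 0 < DB) (hGB : 0 < GB) (hDC : 0 < DC) (hGC : 0 < GC) :
    Real.log (2 + 2 * (min (√DA / √√GA) (√DB / √√GB) / (√DC / √√GC))) ≤
      2 * Real.log (2 + min (DA ^ 2 / GA) (DB ^ 2 / GB) * GC / DC ^ 2) := by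
  set q := min (√DA / √√GA) (√DB / √√GB) / (√DC / √√GC) with hq
  have h4 : ∀ {D G : ℝ}, 0 < D → 0 < G → (√D / √√G) ^ 4 = D ^ 2 / G := by
    intro D G hD hG
    rw [div_pow, show (√D) ^ 4 = ((√D) ^ 2) ^ 2 by ring, Real.sq_sqrt hD.le,
      show (√√G) ^ 4 = ((√√G) ^ 2) ^ 2 by ring, Real.sq_sqrt (Real.sqrt_nonneg _),
      Real.sq_sqrt hG.le]
  have p1 : 0 ≤ √DA / √√GA := by positivity
  have p2 : 0 ≤ √DB / √√GB := by positivity
  have hq0 : 0 ≤ q := by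
    have := le_min p1 p2
    positivity
  have hq4 : q ^ 4 = min (DA ^ 2 / GA) (DB ^ 2 / GB) * GC / DC ^ 2 := by
    rw [hq, div_pow, h4 hDC hGC]
    have : (min (√DA / √√GA) (√DB / √√GB)) ^ 4 = min (DA ^ 2 / GA) (DB ^ 2 / GB) := by
      rw [← h4 hDA hGA, ← h4 hDB hGB]
      rcases le_total (√DA / √√GA) (√DB / √√GB) with h | h
      · rw [min_eq_left h, min_eq_left (pow_le_pow_left₀ p1 h 4)]
      · rw [min_eq_right h, min_eq_right (pow_le_pow_left₀ p2 h 4)]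
    rw [this]
    field_simp
  rw [← hq4]
  have h1 : 2 + 2 * q ≤ (2 + q ^ 4) ^ 2 := by
    nlinarith [sq_nonneg (q ^ 4), sq_nonneg (q ^ 2), sq_nonneg (q - 1), sq_nonneg (q ^ 2 - 1 / 2)]
  have h2 : (0 : ℝ) < 2 + 2 * q := by linarith
  refine (Real.log_le_log h2 h1).trans (le_of_eq ?_)
  rw [Real.log_pow]
  norm_num

/-- **The profile path engine, abstract form.** -/
theorem prof_abs {V : ℕ → ℕ → ℕ → ℝ} {P Q R : ℝ → ℝ → ℝ} {cA cB cC κ DA GA DB GB DC GC : ℝ}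
    (hA : 0 < cA) (hB : 0 < cB) (hC : 0 < cC) (hκ : 0 ≤ κ) (hDA : 0 < DA) (hGA : 0 < GA)
    (hDB : 0 < DB) (hGB : 0 < GB) (hDC : 0 < DC) (hGC : 0 < GC)
    (hP : PairFn P κ DA GA DB GB) (hQ : PairFn Q κ DB GB DC GC) (hR : PairFn R κ DA GA DC GC)
    (stA : ∀ a b e, V a b e ≤ V (a + 1) b e +
      6 * (wl cA cB cC a b e * √(R (lv cA a) (lv cC e) * P (lv cA a) (lv cB b))))
    (stB : ∀ a b e, V a b e ≤ V a (b + 1) e +
      6 * (wl cA cB cC a b e * √(P (lv cA a) (lv cB b) * Q (lv cB b) (lv cC e))))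
    (stC : ∀ a b e, V a b e ≤ V a b (e + 1) +
      6 * (wl cA cB cC a b e * √(Q (lv cB b) (lv cC e) * R (lv cA a) (lv cC e))))
    {K : ℝ} (tA : ∀ a b e, V a b e ≤ K * (2 ^ a)⁻¹) (tB : ∀ a b e, V a b e ≤ K * (2 ^ b)⁻¹)
    (tC : ∀ a b e, V a b e ≤ K * (2 ^ e)⁻¹) :
    V 0 0 0 ≤ 2160 * κ * (√√(GA * GB) * √DC) *
      Real.log (2 + min (DA ^ 2 / GA) (DB ^ 2 / GB) * GC / DC ^ 2) := by
  set Ψ := Psi DA GA DB GB DC GC with hΨ
  have Ψ0 : ∀ x, 0 ≤ Ψ x := fun x => Psi_nonneg ..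
  have pμ : ∀ a, 0 < lv cA a := lv_pos hA
  have pν : ∀ a, 0 < lv cB a := lv_pos hB
  have pω : ∀ a, 0 < lv cC a := lv_pos hC
  set α : ℕ → ℝ := fun a => 12 * κ * Ψ (en DA GA (lv cA a)) with hα
  set β : ℕ → ℝ := fun b => 12 * κ * Ψ (en DB GB (lv cB b)) with hβ
  set γ : ℕ → ℝ := fun e => 12 * κ * Ψ (en DC GC (lv cC e)) with hγ
  have sA : ∀ a b e, en DA GA (lv cA a) ≤ en DB GB (lv cB b) →
      en DA GA (lv cA a) ≤ en DC GC (lv cC e) → V a b e ≤ V (a + 1) b e + α a := by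
    intro a b e h1 h2
    refine (stA a b e).trans (add_le_add le_rfl ?_)
    have h3 := cost_le (DA := DA) (GA := GA) (DB := DB) (GB := GB) (DC := DC) (GC := GC) hκ
      (pμ a) (pν b) (pω e) hDA hGA hDB hDC (hP.nonneg _ _ (pμ a) (pν b))
      (hP.bd_right hκ hDA hGA hGB (pμ a) (pν b) h1) (hR.bd_right hκ hDA hGA hGC (pμ a) (pω e) h2)
    rw [wl_eq hA hB hC]
    simp only [hα, hΨ]
    linarith
  have sB : ∀ a b e, en DB GB (lv cB b) ≤ en DA GA (lv cA a) →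
      en DB GB (lv cB b) ≤ en DC GC (lv cC e) → V a b e ≤ V a (b + 1) e + β b := by
    intro a b e h1 h2
    refine (stB a b e).trans (add_le_add le_rfl ?_)
    have h3 := cost_le (DA := DB) (GA := GB) (DB := DC) (GB := GC) (DC := DA) (GC := GA) hκ
      (pν b) (pω e) (pμ a) hDB hGB hDC hDA (hQ.nonneg _ _ (pν b) (pω e))
      (hQ.bd_right hκ hDB hGB hGC (pν b) (pω e) h2) (hP.bd_left hκ hGA hDB hGB (pμ a) (pν b) h1)
    have h4 : Psi DB GB DC GC DA GA (en DB GB (lv cB b)) =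
        Psi DA GA DB GB DC GC (en DB GB (lv cB b)) := by
      unfold Psi; ring
    rw [h4] at h3
    rw [wl_eq hA hB hC]
    simp only [hβ, hΨ]
    have h5 : (√(lv cA a))⁻¹ * (√(lv cB b))⁻¹ * (√(lv cC e))⁻¹ *
        √(P (lv cA a) (lv cB b) * Q (lv cB b) (lv cC e)) =
        (√(lv cB b))⁻¹ * (√(lv cC e))⁻¹ * (√(lv cA a))⁻¹ *
        √(P (lv cA a) (lv cB b) * Q (lv cB b) (lv cC e)) := by ring
    rw [h5]
    linarith
  have sC : ∀ a b e, en DC GC (lv cC e) ≤ en DA GA (lv cA a) →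
      en DC GC (lv cC e) ≤ en DB GB (lv cB b) → V a b e ≤ V a b (e + 1) + γ e := by
    intro a b e h1 h2
    refine (stC a b e).trans (add_le_add le_rfl ?_)
    have h3 := cost_le (DA := DC) (GA := GC) (DB := DA) (GB := GA) (DC := DB) (GC := GB) hκ
      (pω e) (pμ a) (pν b) hDC hGC hDA hDB (hR.nonneg _ _ (pμ a) (pω e))
      (hR.bd_left hκ hGA hDC hGC (pμ a) (pω e) h1) (hQ.bd_left hκ hGB hDC hGC (pν b) (pω e) h2)
    have h4 : Psi DC GC DA GA DB GB (en DC GC (lv cC e)) =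
        Psi DA GA DB GB DC GC (en DC GC (lv cC e)) := by
      unfold Psi; ring
    rw [h4] at h3
    rw [wl_eq hA hB hC]
    simp only [hγ, hΨ]
    have h5 : (√(lv cA a))⁻¹ * (√(lv cB b))⁻¹ * (√(lv cC e))⁻¹ *
        √(Q (lv cB b) (lv cC e) * R (lv cA a) (lv cC e)) =
        (√(lv cC e))⁻¹ * (√(lv cA a))⁻¹ * (√(lv cB b))⁻¹ *
        √(Q (lv cB b) (lv cC e) * R (lv cA a) (lv cC e)) := by ring
    rw [h5]
    linarith
  have c0 : ∀ x, 0 ≤ 12 * κ * Ψ x := fun x => by have := Ψ0 x; positivity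
  set l := Real.log (2 + 2 * (min (√DA / √√GA) (√DB / √√GB) / (√DC / √√GC))) with hl
  set W := √√(GA * GB) * √DC with hW
  have hW0 : 0 ≤ W := by positivity
  have main : ∀ L : ℕ, V 0 0 0 ≤ 1080 * κ * W * l + K * (2 ^ L)⁻¹ := by
    intro L
    have h1 := greedy (V := V) (x := fun a => en DA GA (lv cA a))
      (y := fun b => en DB GB (lv cB b)) (z := fun e => en DC GC (lv cC e)) (α := α) (β := β)
      (γ := γ) (L := L) (Z := K * (2 ^ L)⁻¹) (fun i => c0 _) (fun i => c0 _) (fun i => c0 _)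
      sA sB sC (by
        rintro a b e (h | h | h)
        · rw [← h]; exact tA a b e
        · rw [← h]; exact tB a b e
        · rw [← h]; exact tC a b e)
    have h2 : ∑ i ∈ range L, α i ≤ 12 * κ * (W * (30 * l)) := by
      rw [hα, ← mul_sum]
      exact mul_le_mul_of_nonneg_left (sum_Psi_le hDA hGA hDB hGB hDC hGC hDA hGA hA L)
        (by positivity)
    have h3 : ∑ i ∈ range L, β i ≤ 12 * κ * (W * (30 * l)) := by
      rw [hβ, ← mul_sum]
      exact mul_le_mul_of_nonneg_left (sum_Psi_le hDA hGA hDB hGB hDC hGC hDB hGB hB L)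
        (by positivity)
    have h4 : ∑ i ∈ range L, γ i ≤ 12 * κ * (W * (30 * l)) := by
      rw [hγ, ← mul_sum]
      exact mul_le_mul_of_nonneg_left (sum_Psi_le hDA hGA hDB hGB hDC hGC hDC hGC hC L)
        (by positivity)
    linarith
  have h1 : V 0 0 0 ≤ 1080 * κ * W * l := lim_le main
  have h2 := log_root_le hDA hGA hDB hGB hDC hGC
  refine h1.trans ?_
  have h3 : 1080 * κ * W * l ≤ 1080 * κ * W *
      (2 * Real.log (2 + min (DA ^ 2 / GA) (DB ^ 2 / GB) * GC / DC ^ 2)) :=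
    mul_le_mul_of_nonneg_left h2 (by positivity)
  linarith

end

end Vale.Agent.P141.H312
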